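import Vale.Agent.N232.Main

open MeasureTheory

namespace Vale.Agent.Results.P232.A0FlatTori

open Vale.Agent.N232.S

/-- (1) The isoperimetric profile of all flat three-tori with a triangular basis of nondecreasing
diagonal (all rectangular tori among them). (2) The profile of `T² × ℝ` for all flat tori `T²`
whose area is at least the square of the length of the shortest closed geodesic. -/
theorem result :
    (∀ a b c p q r : ℝ, 0 < a → a ≤ b → b ≤ c →
      vol (Set.univ : Set (T a b c p q r)) = ENNReal.ofReal (a * b * c) ∧
      ∀ V : ℝ, 0 < V → V < a * b * c →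
        profile a b c p q r V = ENNReal.ofReal (J a b (min V (a * b * c - V))) ∧
        ∃ E : Set (T a b c p q r), IsMinimizer V E) ∧
    (∀ a b p : ℝ, 0 < a → a ≤ b → ∀ V : ℝ, 0 < V →
      profile a b 0 p 0 0 V = ENNReal.ofReal (J a b V) ∧
      ∃ E : Set (T a b 0 p 0 0), IsMinimizer V E) :=
  N232.main.2

end Vale.Agent.Results.P232.A0FlatTori
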